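import Vale.Agent.P321.R2.H613.Transfer6
import Vale.Agent.P321.R3.H630.Count5
import Vale.Agent.P321.UB.StepAux

/-! # Costs of the cells, all windows at once: transfer and Poisson–Jensen -/

namespace Vale.Agent.P321.R3.H33

open Complex Finset Vale.Agent.P321.UB Vale.Agent.P321.R2.H613 Vale.Agent.P321.R3.H630

/-- The weight of the given point is admissible for the displaced point. -/
theorem weight5 {κ0 α y r : ℝ} (hκ0 : 0 < κ0) (hα : 0.998999 * κ0 ≤ α) (hr0 : 0 ≤ r)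
    (hr1 : r ≤ 5 / 4) (hy : y = 4 * r * κ0) :
    0.01 ≤ min 1 (1.26 - r) ∧ min 1 (1.26 - r) ≤ 1 ∧
      min 1 (1.26 - r) ≤ 1.26 - 0.9989 * y / (4 * α) := by
  have hα0 : 0 < α := by linarith
  have h1 : 0.9989 * y / (4 * α) ≤ r := by
    rw [hy, div_le_iff₀ (by positivity)]
    calc 0.9989 * (4 * r * κ0) = r * (4 * (0.9989 * κ0)) := by ring
      _ ≤ r * (4 * α) := mul_le_mul_of_nonneg_left (by linarith) hr0
  refine ⟨le_min (by norm_num) ?_, min_le_left _ _, (min_le_right _ _).trans (by linarith)⟩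
  norm_num at hr1 ⊢
  linarith

/-- Every cell gets a point and a cost; in one window the sum of the costs is bounded. -/
theorem cells5 {n i1 : ℕ} {f f' : ℕ → ℂ} {D κ0 κ c θ : ℝ}
    (hreal : ∀ i, (starRingEnd ℂ) (f i) = f i) (hreal' : ∀ i, (starRingEnd ℂ) (f' i) = f' i)
    (hD : 10 ^ 6 ≤ D) (hf : ∀ i ≤ n, ‖f i‖ ≤ 1) (hf' : ∀ i ≤ n, ‖f' i‖ ≤ 1)
    (hn : (n : ℝ) + 1 ≤ Real.exp (D / 10 ^ 5)) (hκ : 0 < κ)
    (hκκ : 10 ^ 11 * κ ≤ κ0) (hκ0 : κ0 ≤ 1 / 2000) (hθ : 0 < θ)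
    (hκθ : κ ^ 2 * θ ^ 2 = c / (21 * 10 ^ 10))
    (hc : c = 9.2 * D) {s0 : ℂ} (hs0 : s0.re = κ0)
    (hs0i : |s0.im| ≤ 5 * κ0)
    (hs : Real.exp (-(D * min 1 (1.26 - |s0.im| / (4 * κ0)))) ≤ ‖NN n i1 f f' s0‖) :
    ∃ (L : ℕ) (φ x : ℕ → ℝ), 3 ≤ L ∧ (L : ℝ) * κ ≤ 205 * κ0 ∧ (∀ j, 0 ≤ φ j) ∧
      (∀ j < L, j * κ ≤ x j ∧ x j ≤ (j + 1) * κ ∧
        Real.exp (-(φ j)) ≤ ‖expSum (n + 1 - i1)
          (fun q => dif i1 f f' q * cexp (-(q : ℂ) ^ 2 / (2 * θ ^ 2)))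
            (((100000 * κ : ℝ) : ℂ) - x j * I)‖) ∧
      8 * (∑ j ∈ range L, φ j) + c * (((L / 100 : ℕ) : ℝ) + 3) ≤ c * L := by
  set ℓ := D / 10 ^ 5 with hℓ
  have hℓ10 : 10 ≤ ℓ := by rw [hℓ, le_div_iff₀ (by norm_num)]; linarith
  have hDℓ : D = 10 ^ 5 * ℓ := by rw [hℓ]; ring
  have hcD : c = 920000 * ℓ := by rw [hc, hDℓ]; ring
  have hκ0p : 0 < κ0 := by linarith
  have hc0 : 0 < c := by rw [hcD]; linarith
  have hκ0θ : 10 ^ 11 * c ≤ 21 * (κ0 ^ 2 * θ ^ 2) := by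
    have h1 : (10 ^ 11 * κ) ^ 2 ≤ κ0 ^ 2 := by gcongr
    have h2 : (10 ^ 11 * κ) ^ 2 * θ ^ 2 ≤ κ0 ^ 2 * θ ^ 2 := by gcongr
    have h3 : (10 ^ 11 * κ) ^ 2 * θ ^ 2 = 10 ^ 22 * (κ ^ 2 * θ ^ 2) := by ring
    rw [h3, hκθ] at h2
    linarith
  have hexpℓ : (1000 : ℝ) ≤ Real.exp ℓ := by
    have h1 : Real.exp 10 ≤ Real.exp ℓ := Real.exp_le_exp.2 hℓ10
    have h2 : Real.exp 10 = Real.exp 1 ^ 10 := by rw [← Real.exp_nat_mul]; norm_num
    have h3 : (2 : ℝ) ^ 10 ≤ Real.exp 1 ^ 10 :=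
      pow_le_pow_left₀ (by norm_num) (by linarith [Real.exp_one_gt_d9]) 10
    rw [h2] at h1
    norm_num at h3
    linarith
  -- the weight of the state
  set r : ℝ := |s0.im| / (4 * κ0) with hr
  have hr0 : 0 ≤ r := by positivity
  have hr1 : r ≤ 5 / 4 := by
    rw [hr, div_le_div_iff₀ (by positivity) (by norm_num)]
    linarith
  have hrκ : |s0.im| = 4 * r * κ0 := by rw [hr]; field_simp
  set g : ℝ := min 1 (1.26 - r) with hg
  have hg1 : g ≤ 1 := min_le_left _ _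
  -- bound for the difference sequence
  have ha : ∀ k < n + 1 - i1, ‖dif i1 f f' k‖ ≤ 2 := by
    intro k hk
    have h1 := hf (i1 + k) (by omega)
    have h2 := hf' (i1 + k) (by omega)
    unfold dif
    calc _ ≤ ‖f (i1 + k)‖ + ‖f' (i1 + k)‖ := norm_sub_le _ _
      _ ≤ _ := by linarith
  have hm : ((n + 1 - i1 : ℕ) : ℝ) ≤ Real.exp ℓ := by
    refine le_trans ?_ hn
    have : n + 1 - i1 ≤ n + 1 := by omega
    exact_mod_cast this
  have hDg : D * g ≤ D := by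
    calc D * g ≤ D * 1 := mul_le_mul_of_nonneg_left hg1 (by linarith)
      _ = D := mul_one _
  -- transfer
  obtain ⟨η, hη, hη2⟩ := transfer6 (m := n + 1 - i1) (a := dif i1 f f') (A := 2)
    (κ0 := κ0) (θ := θ) (ε := Real.exp (-(D * g))) (s0 := s0) (by norm_num) ha hκ0p (by
      have h1 : 1 ^ 2 ≤ (κ0 * θ) ^ 2 := by rw [mul_pow]; nlinarith
      exact (pow_le_pow_iff_left₀ (by norm_num) (by positivity) (by norm_num)).1 h1) hs0 hs (by
      have h1 : Real.exp (-(κ0 ^ 2 * θ ^ 2) / (2 * 10 ^ 7)) ≤ Real.exp (-(D * g + 2 * ℓ)) := by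
        apply Real.exp_le_exp.2
        rw [neg_div, neg_le_neg_iff, le_div_iff₀ (by norm_num)]
        rw [hcD] at hκ0θ
        refine le_trans (mul_le_mul_of_nonneg_right (add_le_add_left hDg _) (by norm_num)) ?_
        rw [hDℓ]
        linarith
      calc 100 * 2 * ((n + 1 - i1 : ℕ) : ℝ) * Real.exp (-(κ0 ^ 2 * θ ^ 2) / (2 * 10 ^ 7))
          ≤ 100 * 2 * Real.exp ℓ * Real.exp (-(D * g + 2 * ℓ)) := by gcongr
        _ ≤ 1000 * Real.exp ℓ * Real.exp (-(D * g + 2 * ℓ)) := by gcongr; norm_num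
        _ ≤ Real.exp ℓ * Real.exp ℓ * Real.exp (-(D * g + 2 * ℓ)) := by gcongr
        _ = Real.exp (-(D * g)) := by
            rw [← Real.exp_add, ← Real.exp_add]; congr 1; ring)
  -- the windowed sequence
  set a : ℕ → ℂ := fun k => dif i1 f f' k * cexp (-(k : ℂ) ^ 2 / (2 * θ ^ 2)) with haa
  have hgr : ∀ k : ℕ, cexp (-(k : ℂ) ^ 2 / (2 * θ ^ 2)) =
      ((Real.exp (-(k : ℝ) ^ 2 / (2 * θ ^ 2)) : ℝ) : ℂ) := by
    intro k; push_cast; rfl
  have hareal : ∀ k, (starRingEnd ℂ) (a k) = a k := by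
    intro k
    simp only [haa, dif]
    rw [hgr k, map_mul, map_sub, hreal, hreal', Complex.conj_ofReal]
  have ha2 : ∀ k < n + 1 - i1, ‖a k‖ ≤ 2 := by
    intro k hk
    rw [haa]
    simp only [norm_mul]
    have h1 : ‖cexp (-(k : ℂ) ^ 2 / (2 * θ ^ 2))‖ ≤ 1 := by
      rw [hgr k, Complex.norm_real, Real.norm_of_nonneg (Real.exp_pos _).le, Real.exp_le_one_iff]
      apply div_nonpos_of_nonpos_of_nonneg
      · have := sq_nonneg (k : ℝ); linarith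
      · positivity
    calc ‖dif i1 f f' k‖ * ‖cexp (-(k : ℂ) ^ 2 / (2 * θ ^ 2))‖ ≤ 2 * 1 :=
          mul_le_mul (ha k hk) h1 (norm_nonneg _) (by norm_num)
      _ = 2 := mul_one _
  -- the displaced point
  set s1 : ℂ := s0 + η with hs1
  have hre : s1.re = κ0 + η := by rw [hs1, add_re, ofReal_re, hs0]
  have him : s1.im = s0.im := by rw [hs1, add_im, ofReal_im, add_zero]
  have hηabs := abs_le.1 hη
  have hα1 : 0.998999 * κ0 ≤ s1.re - 100000 * κ := by rw [hre]; linarith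
  have hmA : ∀ x : ℝ, ‖expSum (n + 1 - i1) a (((100000 * κ : ℝ) : ℂ) - x * I)‖ ≤
      Real.exp (2 * ℓ) := by
    intro x
    have hx : 0 ≤ ((((100000 * κ : ℝ) : ℂ) - x * I)).re := by
      have e : ((((100000 * κ : ℝ) : ℂ) - x * I)).re = 100000 * κ := by
        rw [sub_re, ofReal_re, mul_re, ofReal_re, ofReal_im, I_re, I_im]
        ring
      rw [e]
      positivity
    refine (norm_expSum_le ha2 hx).trans ?_
    calc ((n + 1 - i1 : ℕ) : ℝ) * 2 ≤ Real.exp ℓ * Real.exp ℓ := by gcongr; linarith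
      _ = Real.exp (2 * ℓ) := by rw [← Real.exp_add]; congr 1; ring
  obtain ⟨hg0, -, hg3⟩ := weight5 (y := |s1.im|) hκ0p hα1 hr0 hr1 (by rw [him, hrκ])
  rw [← hg] at hg0 hg3
  obtain ⟨L, x, φ, hL1, hL2, hφ0, hxφ, hsum⟩ := count5 (m := n + 1 - i1) (a := a)
    (A := Real.exp (2 * ℓ))
    (w0 := 100000 * κ) (ε := Real.exp (-(D * g)) / 2) (h := κ) (s := s1)
    (c := c) (g := g)
    hareal (by positivity) (by rw [hre]; linarith) (by rw [hre]; linarith) hκ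
    (by rw [hre]; linarith) (Real.one_le_exp (by linarith)) hmA
    (by positivity) hη2 (by linarith) hg1 hg3 hc0 (by
      rw [Real.log_exp, Real.log_div (Real.exp_pos _).ne' (by norm_num), Real.log_exp]
      have h1 := Real.log_two_lt_d9
      have h3 : 10000 * ℓ * 0.01 ≤ 10000 * ℓ * g := mul_le_mul_of_nonneg_left hg0 (by linarith)
      have h4 : c * g = 9.1 * (D * g) + 10000 * ℓ * g := by rw [hc, hDℓ]; ring
      rw [h4]
      linarith)
  refine ⟨L, φ, x, hL1, hL2.trans ?_, hφ0, hxφ, hsum⟩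
  rw [hre]
  linarith

end Vale.Agent.P321.R3.H33
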