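import Vale.Agent.P321.R2.H613.Transfer6
import Vale.Agent.P321.R3.H613.Count7
import Vale.Agent.P321.UB.StepAux

/-! # Costs of the cells: transfer and Poisson–Jensen, with the weighted state -/

namespace Vale.Agent.P321.R3.H33

open Complex Finset Vale.Agent.P321.UB Vale.Agent.P321.R2.H613 Vale.Agent.P321.R3.H613

/-- The number of cells. -/
theorem exists_H7 {κ κ0 w : ℝ} (hκ : 0 < κ) (hκκ : 10 ^ 8 * κ ≤ κ0) (hw : 1.99 * κ0 ≤ w) :
    ∃ H : ℕ, 1000 ≤ H ∧ (2 * (H : ℝ) + 8) * κ ≤ w ∧ 0.9999 * w ≤ 2 * (H : ℝ) * κ := by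
  have hw0 : 0 < w := by linarith
  have hfl : 10000 ≤ ⌊w / (2 * κ)⌋₊ := by
    apply Nat.le_floor
    rw [le_div_iff₀ (by positivity)]
    push_cast
    linarith
  have h1 : ((⌊w / (2 * κ)⌋₊ : ℕ) : ℝ) ≤ w / (2 * κ) := Nat.floor_le (by positivity)
  rw [le_div_iff₀ (by positivity)] at h1
  have h2 : w / (2 * κ) < (⌊w / (2 * κ)⌋₊ : ℝ) + 1 := Nat.lt_floor_add_one _
  rw [div_lt_iff₀ (by positivity)] at h2
  have hHc : ((⌊w / (2 * κ)⌋₊ - 4 : ℕ) : ℝ) = (⌊w / (2 * κ)⌋₊ : ℝ) - 4 := by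
    rw [Nat.cast_sub (by omega)]
    norm_num
  refine ⟨⌊w / (2 * κ)⌋₊ - 4, by omega, ?_, ?_⟩
  · rw [hHc]
    linarith
  · rw [hHc]
    linarith

/-- The weight of the given point is admissible for the displaced point. -/
theorem weight7 {κ0 α y r : ℝ} (hκ0 : 0 < κ0) (hα : 0.99898 * κ0 ≤ α) (hr0 : 0 ≤ r)
    (hr1 : r ≤ 4.5 / 2.3) (hy : y = 2.3 * r * κ0) :
    0.04 ≤ min 1 (2 - r) ∧ min 1 (2 - r) ≤ 1 ∧
      min 1 (2 - r) ≤ 2 - 0.9989 * y / (2.3 * α) := by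
  have hα0 : 0 < α := by linarith
  have h1 : 0.9989 * y / (2.3 * α) ≤ r := by
    rw [hy, div_le_iff₀ (by positivity)]
    calc 0.9989 * (2.3 * r * κ0) = r * (2.3 * (0.9989 * κ0)) := by ring
      _ ≤ r * (2.3 * α) := mul_le_mul_of_nonneg_left (by linarith) hr0
  refine ⟨le_min (by norm_num) ?_, min_le_left _ _, (min_le_right _ _).trans (by linarith)⟩
  have : (4.5 : ℝ) / 2.3 ≤ 1.96 := by norm_num
  linarith

/-- Every cell gets a point and a cost; the weighted sum of the costs is bounded. -/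
theorem cells7 {n i1 : ℕ} {f f' : ℕ → ℂ} {D κ0 κ c θ : ℝ}
    (hreal : ∀ i, (starRingEnd ℂ) (f i) = f i) (hreal' : ∀ i, (starRingEnd ℂ) (f' i) = f' i)
    (hD : 10 ^ 6 ≤ D) (hf : ∀ i ≤ n, ‖f i‖ ≤ 1) (hf' : ∀ i ≤ n, ‖f' i‖ ≤ 1)
    (hn : (n : ℝ) + 1 ≤ Real.exp (D / 10 ^ 5)) (hκ : 0 < κ)
    (hκκ : 10 ^ 8 * κ ≤ κ0) (hκ0 : κ0 ≤ 1 / 2000) (hθ : 0 < θ)
    (hκθ : κ ^ 2 * θ ^ 2 = 0.0366 * c / 10 ^ 6)
    (hc : c = 19.1 * D) {s0 : ℂ} (hs0 : s0.re = κ0)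
    (hs0i : |s0.im| ≤ 4.5 * κ0)
    (hs : Real.exp (-(D * min 1 (2 - |s0.im| / (2.3 * κ0)))) ≤ ‖NN n i1 f f' s0‖) :
    ∃ (H : ℕ) (ξ φ : ℕ → ℝ), 1000 ≤ H ∧ ((2 * H + 1 : ℕ) : ℝ) * κ ≤ 13 * κ0 ∧
      (∀ j, 0 ≤ φ j) ∧
      (∀ j ≤ 2 * H, j * κ ≤ ξ j ∧ ξ j ≤ (j + 1) * κ ∧
        Real.exp (-(φ j)) ≤ ‖expSum (n + 1 - i1)
          (fun k => dif i1 f f' k * cexp (-(k : ℂ) ^ 2 / (2 * θ ^ 2)))
            (((1000 * κ : ℝ) : ℂ) - ξ j * I)‖) ∧
      6 * (∑ j ∈ range (H + 1), φ j) + 4 * (∑ j ∈ range (H + (H + 7) / 2), φ j) +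
        2 * (∑ j ∈ range (2 * H + 1), φ j) ≤ 2 * H * c := by
  set ℓ := D / 10 ^ 5 with hℓ
  have hℓ10 : 10 ≤ ℓ := by rw [hℓ, le_div_iff₀ (by norm_num)]; linarith
  have hDℓ : D = 10 ^ 5 * ℓ := by rw [hℓ]; ring
  have hcD : c = 1910000 * ℓ := by rw [hc, hDℓ]; ring
  have hκ0p : 0 < κ0 := by linarith
  have hc0 : 0 < c := by rw [hcD]; linarith
  have hκ0θ : 10 ^ 10 * (0.0366 * c) ≤ κ0 ^ 2 * θ ^ 2 := by
    have h1 : (10 ^ 8 * κ) ^ 2 ≤ κ0 ^ 2 := by gcongr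
    have h2 : (10 ^ 8 * κ) ^ 2 * θ ^ 2 ≤ κ0 ^ 2 * θ ^ 2 := by gcongr
    have h3 : (10 ^ 8 * κ) ^ 2 * θ ^ 2 = 10 ^ 16 * (κ ^ 2 * θ ^ 2) := by ring
    rw [h3, hκθ] at h2
    linarith
  have hexpℓ : (1000 : ℝ) ≤ Real.exp ℓ := by
    have h1 : Real.exp 10 ≤ Real.exp ℓ := Real.exp_le_exp.2 hℓ10
    have h2 : Real.exp 10 = Real.exp 1 ^ 10 := by rw [← Real.exp_nat_mul]; norm_num
    have h3 : (2 : ℝ) ^ 10 ≤ Real.exp 1 ^ 10 :=
      pow_le_pow_left₀ (by norm_num) (by linarith [Real.exp_one_gt_d9]) 10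
    rw [h2] at h1
    norm_num at h3
    linarith
  -- the weight of the state
  set r : ℝ := |s0.im| / (2.3 * κ0) with hr
  have hr0 : 0 ≤ r := by positivity
  have hr1 : r ≤ 4.5 / 2.3 := by
    rw [hr, div_le_div_iff₀ (by positivity) (by norm_num)]
    linarith
  have hrκ : |s0.im| = 2.3 * r * κ0 := by rw [hr]; field_simp
  set g : ℝ := min 1 (2 - r) with hg
  have hg1 : g ≤ 1 := min_le_left _ _
  have hg2 : g ≤ 2 - r := min_le_right _ _
  -- bound for the difference sequence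
  have ha : ∀ k < n + 1 - i1, ‖dif i1 f f' k‖ ≤ 2 := by
    intro k hk
    have h1 := hf (i1 + k) (by omega)
    have h2 := hf' (i1 + k) (by omega)
    unfold dif
    calc _ ≤ ‖f (i1 + k)‖ + ‖f' (i1 + k)‖ := norm_sub_le _ _
      _ ≤ _ := by linarith
  have hm : ((n + 1 - i1 : ℕ) : ℝ) ≤ Real.exp ℓ := by
    refine le_trans ?_ hn
    have : n + 1 - i1 ≤ n + 1 := by omega
    exact_mod_cast this
  have hDg : D * g ≤ D := by
    calc D * g ≤ D * 1 := mul_le_mul_of_nonneg_left hg1 (by linarith)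
      _ = D := mul_one _
  -- transfer
  obtain ⟨η, hη, hη2⟩ := transfer6 (m := n + 1 - i1) (a := dif i1 f f') (A := 2)
    (κ0 := κ0) (θ := θ) (ε := Real.exp (-(D * g))) (s0 := s0) (by norm_num) ha hκ0p (by
      have h1 : 1 ^ 2 ≤ (κ0 * θ) ^ 2 := by rw [mul_pow]; nlinarith
      exact (pow_le_pow_iff_left₀ (by norm_num) (by positivity) (by norm_num)).1 h1) hs0 hs (by
      have h1 : Real.exp (-(κ0 ^ 2 * θ ^ 2) / (2 * 10 ^ 7)) ≤ Real.exp (-(D * g + 2 * ℓ)) := by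
        apply Real.exp_le_exp.2
        rw [neg_div, neg_le_neg_iff, le_div_iff₀ (by norm_num)]
        rw [hcD] at hκ0θ
        refine le_trans (mul_le_mul_of_nonneg_right (add_le_add_left hDg _) (by norm_num)) ?_
        rw [hDℓ]
        linarith
      calc 100 * 2 * ((n + 1 - i1 : ℕ) : ℝ) * Real.exp (-(κ0 ^ 2 * θ ^ 2) / (2 * 10 ^ 7))
          ≤ 100 * 2 * Real.exp ℓ * Real.exp (-(D * g + 2 * ℓ)) := by gcongr
        _ ≤ 1000 * Real.exp ℓ * Real.exp (-(D * g + 2 * ℓ)) := by gcongr; norm_num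
        _ ≤ Real.exp ℓ * Real.exp ℓ * Real.exp (-(D * g + 2 * ℓ)) := by gcongr
        _ = Real.exp (-(D * g)) := by
            rw [← Real.exp_add, ← Real.exp_add]; congr 1; ring)
  -- the windowed sequence
  set a : ℕ → ℂ := fun k => dif i1 f f' k * cexp (-(k : ℂ) ^ 2 / (2 * θ ^ 2)) with haa
  have hgr : ∀ k : ℕ, cexp (-(k : ℂ) ^ 2 / (2 * θ ^ 2)) =
      ((Real.exp (-(k : ℝ) ^ 2 / (2 * θ ^ 2)) : ℝ) : ℂ) := by
    intro k; push_cast; rfl
  have hareal : ∀ k, (starRingEnd ℂ) (a k) = a k := by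
    intro k
    simp only [haa, dif]
    rw [hgr k, map_mul, map_sub, hreal, hreal', Complex.conj_ofReal]
  have ha2 : ∀ k < n + 1 - i1, ‖a k‖ ≤ 2 := by
    intro k hk
    rw [haa]
    simp only [norm_mul]
    have h1 : ‖cexp (-(k : ℂ) ^ 2 / (2 * θ ^ 2))‖ ≤ 1 := by
      rw [hgr k, Complex.norm_real, Real.norm_of_nonneg (Real.exp_pos _).le, Real.exp_le_one_iff]
      apply div_nonpos_of_nonpos_of_nonneg
      · have := sq_nonneg (k : ℝ); linarith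
      · positivity
    calc ‖dif i1 f f' k‖ * ‖cexp (-(k : ℂ) ^ 2 / (2 * θ ^ 2))‖ ≤ 2 * 1 :=
          mul_le_mul (ha k hk) h1 (norm_nonneg _) (by norm_num)
      _ = 2 := mul_one _
  -- the point and the width
  set s1 : ℂ := s0 + η with hs1
  have hre : s1.re = κ0 + η := by rw [hs1, add_re, ofReal_re, hs0]
  have him : s1.im = s0.im := by rw [hs1, add_im, ofReal_im, add_zero]
  have hηabs := abs_le.1 hη
  set α : ℝ := s1.re - 1000 * κ with hα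
  have hα1 : 0.99898 * κ0 ≤ α := by rw [hα, hre]; linarith
  have hα2 : α ≤ 1.001 * κ0 := by rw [hα, hre]; linarith
  have hα0 : 0 < α := by linarith
  set w : ℝ := max (2 * α) (2.75 * |s1.im|) with hw
  have hwlow : 1.99 * κ0 ≤ w := by
    refine le_trans ?_ (le_max_left _ _)
    linarith
  have hwup : w ≤ 12.4 * κ0 := by
    refine max_le ?_ ?_
    · linarith
    · rw [him]; linarith
  have hw0 : 0 < w := by linarith
  obtain ⟨H, hH1000, hH1, hH2⟩ := exists_H7 hκ hκκ hwlow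
  have hmA : ∀ x : ℝ, ‖expSum (n + 1 - i1) a (((1000 * κ : ℝ) : ℂ) - x * I)‖ ≤ Real.exp (2 * ℓ) := by
    intro x
    refine (norm_expSum_le ha2 (by simp; positivity)).trans ?_
    calc ((n + 1 - i1 : ℕ) : ℝ) * 2 ≤ Real.exp ℓ * Real.exp ℓ := by gcongr; linarith
      _ = Real.exp (2 * ℓ) := by rw [← Real.exp_add]; congr 1; ring
  -- the weight at the displaced point
  obtain ⟨hg0, -, hg3⟩ := weight7 (y := |s1.im|) hκ0p hα1 hr0 hr1 (by rw [him, hrκ])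
  rw [← hg] at hg0 hg3
  have hH3 : 2 * (H : ℝ) * κ ≤ w := by
    have : 2 * (H : ℝ) * κ ≤ (2 * (H : ℝ) + 8) * κ := by gcongr; norm_num
    linarith
  obtain ⟨φ, ξ, hφ0, hξφ, hsum⟩ := count7 (m := n + 1 - i1) (a := a) (A := Real.exp (2 * ℓ))
    (w0 := 1000 * κ) (ε := Real.exp (-(D * g)) / 2) (h := κ) (w := w) (s := s1) (H := H)
    (c := c) (g := g)
    hareal (by positivity) (by rw [hre]; linarith) (by rw [hre]; linarith)
    (by rw [him, hre]; linarith) (fun h => max_eq_left h) (fun h => max_eq_right h.le) hκ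
    (by linarith) (Real.one_le_exp (by linarith)) hmA
    (by positivity) hη2 (by linarith) hg1 hg3 (by
      rw [Real.log_exp, Real.log_div (Real.exp_pos _).ne' (by norm_num), Real.log_exp]
      have h1 := Real.log_two_lt_d9
      have h3 : 10000 * ℓ * 0.04 ≤ 10000 * ℓ * g := mul_le_mul_of_nonneg_left hg0 (by linarith)
      have h4 : c * g = 19 * (D * g) + 10000 * ℓ * g := by rw [hc, hDℓ]; ring
      rw [h4]
      linarith) hH3 hH2
  have hext : ∀ N ≤ 2 * H + 1,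
      ∑ j ∈ range N, (if j < 2 * H + 1 then φ j else 0) = ∑ j ∈ range N, φ j := by
    intro N hN
    refine Finset.sum_congr rfl fun j hj => if_pos ?_
    have := Finset.mem_range.1 hj
    omega
  refine ⟨H, ξ, fun j => if j < 2 * H + 1 then φ j else 0, hH1000, ?_, ?_, ?_, ?_⟩
  · push_cast
    have : (2 * (H : ℝ) + 1) * κ ≤ (2 * (H : ℝ) + 8) * κ := by gcongr; norm_num
    linarith
  · intro j
    by_cases hj : j < 2 * H + 1
    · simp only [if_pos hj]; exact hφ0 j hj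
    · simp only [if_neg hj]; exact le_rfl
  · intro j hj
    have hj' : j < 2 * H + 1 := by omega
    obtain ⟨e1, e2, e3⟩ := hξφ j hj'
    refine ⟨e1, e2, ?_⟩
    simp only [if_pos hj']
    exact e3
  · rw [hext (H + 1) (by omega), hext (H + (H + 7) / 2) (by omega), hext (2 * H + 1) le_rfl]
    exact hsum

end Vale.Agent.P321.R3.H33
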